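import Vale.Agent.P258.MathlibUsed
import Mathlib.GroupTheory.Perm.Sign
import Mathlib.Tactic

set_option linter.all false

/-!
The symmetric group on five letters, with a code for each element, in which the kernel computes
products quickly, and its class of odd elements whose fourth power is not `1`.
-/

namespace Vale.Agent.P258.H550S5

/-- The symmetric group on five letters. -/
abbrev G := Equiv.Perm (Fin 5)

/-- The number with the octal digits `e, d, c, b, a`. -/
def cd (a b c d e : ℕ) : ℕ :=
  Nat.add (Nat.add (Nat.add a (Nat.mul 8 b)) (Nat.add (Nat.mul 64 c) (Nat.mul 512 d)))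
    (Nat.mul 4096 e)

def dgt (x k : ℕ) : ℕ := Nat.mod (Nat.div x (Nat.pow 8 k)) 8

def mulN (x y : ℕ) : ℕ :=
  cd (dgt x (dgt y 0)) (dgt x (dgt y 1)) (dgt x (dgt y 2)) (dgt x (dgt y 3)) (dgt x (dgt y 4))

def invN (x : ℕ) : ℕ :=
  Nat.add (Nat.add (Nat.pow 8 (dgt x 1)) (Nat.mul 2 (Nat.pow 8 (dgt x 2))))
    (Nat.add (Nat.mul 3 (Nat.pow 8 (dgt x 3))) (Nat.mul 4 (Nat.pow 8 (dgt x 4))))

def cjN (x k : ℕ) : ℕ := mulN (mulN (invN k) x) k

def ciN (x k : ℕ) : ℕ := mulN (mulN k x) (invN k)

def force {α : Type} (n : ℕ) (f : ℕ → α) : α :=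
  Nat.rec (motive := fun _ => α) (f 0) (fun m _ => f (Nat.succ m)) n

theorem force_eq {α : Type} (n : ℕ) (f : ℕ → α) : force n f = f n := by
  cases n <;> rfl

def mem (x : ℕ) (l : List ℕ) : Bool := l.any fun y => Nat.beq x y

def look (x : ℕ) : List ℕ → List ℕ → ℕ
  | a :: l, b :: m => cond (Nat.beq x a) b (look x l m)
  | _, _ => 0

/-- The codes of the elements. -/
def allC : List ℕ :=
  [668, 675, 724, 738, 787, 794, 1116, 1123, 1228, 1249, 1291, 1305, 1620, 1634, 1676, 1697, 1802,
    1809, 2131, 2138, 2187, 2201, 2250, 2257, 4252, 4259, 4308, 4322, 4371, 4378, 5148, 5155,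
    5316, 5344, 5379, 5400, 5652, 5666, 5764, 5792, 5890, 5904, 6163, 6170, 6275, 6296, 6338,
    6352, 8284, 8291, 8396, 8417, 8459, 8473, 8732, 8739, 8900, 8928, 8963, 8984, 9740, 9761,
    9796, 9824, 9985, 9992, 10251, 10265, 10307, 10328, 10433, 10440, 12372, 12386, 12428, 12449,
    12554, 12561, 12820, 12834, 12932, 12960, 13058, 13072, 13324, 13345, 13380, 13408, 13569,
    13576, 14346, 14353, 14402, 14416, 14465, 14472, 16467, 16474, 16523, 16537, 16586, 16593,
    16915, 16922, 17027, 17048, 17090, 17104, 17419, 17433, 17475, 17496, 17601, 17608, 17930,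
    17937, 17986, 18000, 18049, 18056]

/-- The codes of the even elements. -/
def evC : List ℕ :=
  [668, 738, 787, 1123, 1228, 1305, 1620, 1697, 1802, 2138, 2187, 2257, 4259, 4308, 4378, 5148,
    5344, 5379, 5666, 5764, 5904, 6163, 6296, 6338, 8284, 8417, 8459, 8739, 8900, 8984, 9740,
    9824, 9985, 10265, 10307, 10440, 12386, 12428, 12561, 12820, 12960, 13058, 13345, 13380,
    13576, 14346, 14416, 14465, 16467, 16537, 16586, 16922, 17027, 17104, 17419, 17496, 17601,
    17937, 17986, 18056]

def valid (x : ℕ) : Bool := mem x allC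

/-- The code of the representative. -/
def rep (t : ℕ) : ℕ :=
  ([10433] : List ℕ).getD t 0

/-- The codes of the elements of the class `t`. -/
def cl (t : ℕ) : List ℕ :=
  ([[724, 794, 1116, 1249, 2131, 4322, 4371, 5155, 5316, 6170, 8291, 8473, 8732, 8963, 10433,
    12372, 12834, 13569, 14353, 14402]] : List (List ℕ)).getD t []

/-- The codes of elements conjugating the elements of `cl t` to the representative. -/
def wl (t : ℕ) : List ℕ :=
  ([[6352, 17090, 5904, 16922, 17986, 6338, 17104, 5890, 12834, 18000, 13072, 6170, 13058, 5666,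
    18056, 14402, 14416, 14472, 4378, 4322]] : List (List ℕ)).getD t []

/-- The codes of representatives of the elements of the class `t` under conjugation by the
centralizer of the representative. -/
def orb (t : ℕ) : List ℕ :=
  ([[724, 794, 1249, 10433, 13569]] : List (List ℕ)).getD t []

/-- The codes of the elements commuting with the representative of the class `t`. -/
def cen (t : ℕ) : List ℕ :=
  ([[10433, 10440, 13569, 13576, 18049, 18056]] : List (List ℕ)).getD t []

def wN (t x : ℕ) : ℕ := look x (cl t) (wl t)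

end Vale.Agent.P258.H550S5
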