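import Vale.Agent.P258.R2.H550S5.Sound

set_option linter.all false

namespace Vale.Agent.P258.H550S5

theorem conj_same (D : Diagram) (ρ : Fin D.n → G) (h : D.IsCol ρ) {a b : Fin D.n}
    (hab : D.SameComponent a b) : ∃ k : G, ρ b = k⁻¹ * ρ a * k := by
  obtain ⟨i, rfl⟩ := hab
  induction i with
  | zero => exact ⟨1, by simp⟩
  | succ i ih =>
    obtain ⟨k, hk⟩ := ih
    refine ⟨k * ρ (D.above (D.next^[i] a)) ^ (D.sgn (D.next^[i] a) : ℤ), ?_⟩
    rw [Function.iterate_succ_apply', h, hk, zpow_neg]
    group

theorem mem_mem {x : ℕ} {l : List ℕ} (h : x ∈ l) : mem x l = true := by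
  unfold mem
  rw [List.any_eq_true]
  exact ⟨x, h, Nat.beq_refl x⟩

theorem keyR (ρ : Fin 21 → G) (h : pattern.IsCol ρ) (hs : Equiv.Perm.sign (ρ 0) = -1)
    (hs19 : Equiv.Perm.sign (ρ 19) = 1)
    (hE : pattern.lonVal ρ patternE = 1 → ρ 19 = 1)
    (hl : ρ 0 * ρ 0 * pattern.lonVal ρ patternK = 1) : ρ 0 * ρ 0 * (ρ 0 * ρ 0) = 1 := by
  by_contra hne
  have hcl := exists_class hs hne
  obtain ⟨t, ht, ht0⟩ : ∃ t, t < 1 ∧ t = 0 := ⟨0, by norm_num, rfl⟩
  rw [← ht0] at hcl
  obtain ⟨R, hR⟩ := exists_rep ht
  obtain ⟨W, _, eW⟩ := exists_w ht hR hcl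
  have eW' : W * ρ 0 * W⁻¹ = R := by rw [eW]; group
  obtain ⟨k12, hk12⟩ := conj_same pattern ρ h ((comp_K 12).2 (by decide))
  have hk12' : ρ 12 = k12⁻¹ * ρ 0 * k12 := hk12
  have hcl12 : code (W * ρ 12 * W⁻¹) ∈ cl t := by
    refine mem_cl ht hR (k := W * k12 * W⁻¹) ?_
    rw [← eW', hk12']
    group
  obtain ⟨C, hC, horb⟩ := exists_orb ht hR hcl12
  let φ : G →* G := (MulAut.conj (C * W)).toMonoidHom
  have hφ : ∀ g, φ g = C * W * g * (C * W)⁻¹ := fun g => rfl
  have hφinj : Function.Injective φ := (MulAut.conj (C * W)).injective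
  let v : Fin 21 → G := fun a => φ (ρ a)
  have hv : pattern.IsCol v := Diagram.IsCol.map pattern h φ
  have hP : PatRel v := patRel_of_isCol v hv
  have hEv : (v 6)⁻¹ * v 10 = 1 → v 19 = 1 := by
    intro h1
    have h2 : pattern.lonVal v patternE = 1 := by rw [lonVal_E]; exact h1
    have h3 : pattern.lonVal v patternE = φ (pattern.lonVal ρ patternE) :=
      Diagram.lonVal_map pattern ρ φ patternE
    rw [h3] at h2
    have h4 : pattern.lonVal ρ patternE = 1 := hφinj (by rw [h2, map_one])
    change φ (ρ 19) = 1
    rw [hE h4, map_one]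
  have hlv : v 0 * v 0 * lamK v = 1 := by
    rw [← lonVal_K]
    have h3 : pattern.lonVal v patternK = φ (pattern.lonVal ρ patternK) :=
      Diagram.lonVal_map pattern ρ φ patternK
    rw [h3]
    change φ (ρ 0) * φ (ρ 0) * φ (pattern.lonVal ρ patternK) = 1
    rw [← map_mul, ← map_mul, hl, map_one]
  have hv0 : v 0 = R := by
    change φ (ρ 0) = _
    rw [hφ]
    have : C * W * ρ 0 * (C * W)⁻¹ = C * (W * ρ 0 * W⁻¹) * C⁻¹ := by group
    rw [this, eW', hC]
    group
  have hv12 : code (v 12) ∈ orb t := by
    change code (φ (ρ 12)) ∈ orb t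
    rw [hφ]
    have : C * W * ρ 12 * (C * W)⁻¹ = C * (W * ρ 12 * W⁻¹) * C⁻¹ := by group
    rw [this]
    exact horb
  have hmem : ∀ b : Fin 21, b.val < 19 → code (v b) ∈ cl t := by
    intro b hb
    obtain ⟨k2, hk2⟩ := conj_same pattern v hv ((comp_K b).2 hb)
    have hk2' : v b = k2⁻¹ * v 0 * k2 := hk2
    refine mem_cl ht hR (k := k2) ?_
    rw [← hv0, hk2']
  have h8c := transporter_rep ht hR (hmem 1 (by decide)) (y := v 8) (by rw [← hv0]; exact hP.f0)
  have h19c := transporter ht hR (hmem 10 (by decide)) (hmem 11 (by decide)) hP.f10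
  have hev : mem (code (v 19)) evC = true := by
    apply chk_even
    change Equiv.Perm.sign (φ (ρ 19)) = 1
    rw [hφ, map_mul, map_mul, hs19, map_inv, mul_one, mul_inv_cancel]
  exact sound v hP hEv hev t (by rw [hv0, hR]) hv12 (hmem 3 (by decide))
    (mem_mem (hmem 8 (by decide))) h8c h19c (all_range' check ht) hlv

/-- The element with a given code. -/
noncomputable def toG (x : ℕ) : G := if h : valid x = true then (exists_code h).choose else 1

theorem code_toG {x : ℕ} (h : valid x = true) : code (toG x) = x := by
  unfold toG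
  rw [dif_pos h]
  exact (exists_code h).choose_spec

/-- The codes of a colouring of the first pattern with `μ ^ (-2) * λ = 1`. -/
def bcA (i : ℕ) : ℕ :=
  ([10433, 1249, 13569, 724, 13569, 8963, 8732, 14402, 12372, 14402, 5155, 8291, 724, 8732, 1249, 6170, 14353, 12834, 14353, 14465, 14416] : List ℕ).getD i 0

theorem chk_bcA : ((List.range 21).all fun i => valid (bcA i)) = true := by
  decide +kernel

/-- A colouring of the first pattern with `μ ^ (-2) * λ = 1`. -/
noncomputable def baseA (i : Fin 21) : G := toG (bcA i.val)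

theorem code_baseA (i : Fin 21) : code (baseA i) = bcA i.val :=
  code_toG (all_range' chk_bcA i.isLt)

theorem baseA_rel : PatRel baseA where
  f0 := code_inj (by simp only [code_cj, code_baseA]; decide +kernel)
  f1 := code_inj (by simp only [code_cj, code_baseA]; decide +kernel)
  f2 := code_inj (by simp only [code_cj, code_baseA]; decide +kernel)
  f3 := code_inj (by simp only [code_cj, code_baseA]; decide +kernel)
  f4 := code_inj (by simp only [code_cj, code_baseA]; decide +kernel)
  f5 := code_inj (by simp only [code_cj, code_baseA]; decide +kernel)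
  f6 := code_inj (by simp only [code_cj, code_baseA]; decide +kernel)
  f7 := code_inj (by simp only [code_cj, code_baseA]; decide +kernel)
  f8 := code_inj (by simp only [code_cj, code_baseA]; decide +kernel)
  f9 := code_inj (by simp only [code_cj, code_baseA]; decide +kernel)
  f10 := code_inj (by simp only [code_cj, code_baseA]; decide +kernel)
  f11 := code_inj (by simp only [code_cj, code_baseA]; decide +kernel)
  f12 := code_inj (by simp only [code_cj, code_baseA]; decide +kernel)
  f13 := code_inj (by simp only [code_cj, code_baseA]; decide +kernel)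
  f14 := code_inj (by simp only [code_cj, code_baseA]; decide +kernel)
  f15 := code_inj (by simp only [code_cj, code_baseA]; decide +kernel)
  f16 := code_inj (by simp only [code_cj, code_baseA]; decide +kernel)
  f17 := code_inj (by simp only [code_cj, code_baseA]; decide +kernel)
  f18 := code_inj (by simp only [code_cj, code_baseA]; decide +kernel)
  f19 := code_inj (by simp only [code_cj, code_baseA]; decide +kernel)
  f20 := code_inj (by simp only [code_cj, code_baseA]; decide +kernel)

theorem baseA_K : lamK baseA = baseA 0 * baseA 0 := by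
  apply code_inj
  unfold lamK
  simp only [code_mul, code_inv, code_one, code_baseA]
  decide +kernel

theorem baseA_four : baseA 0 * baseA 0 * (baseA 0 * baseA 0) ≠ 1 := by
  intro h
  have := congrArg code h
  rw [code_mul, code_mul, code_one, code_baseA] at this
  revert this
  decide +kernel

theorem baseA_E : ((baseA 6)⁻¹ * baseA 10) ^ (2 : ℕ) = 1 := by
  apply code_inj
  simp only [pow_succ, pow_zero, one_mul, code_mul, code_inv, code_one, code_baseA]
  decide +kernel

theorem baseA_19 : baseA 19 = ((baseA 6)⁻¹ * baseA 10) ^ (1 : ℕ) := by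
  apply code_inj
  simp only [pow_succ, pow_zero, one_mul, code_mul, code_inv, code_one, code_baseA]
  decide +kernel

theorem baseA_odd : Equiv.Perm.sign (baseA 0) = -1 := by
  rcases Int.units_eq_one_or (Equiv.Perm.sign (baseA 0)) with h | h
  · have h1 := chk_even _ h
    rw [code_baseA] at h1
    revert h1
    decide +kernel
  · exact h

/-- The codes of a colouring of the first pattern with `μ ^ (-2) * λ = 1`. -/
def bcB (i : ℕ) : ℕ :=
  ([10433, 1249, 4322, 13569, 4322, 6170, 8473, 14402, 12372, 14402, 12834, 8963, 794, 8963, 1249, 13569, 8732, 8963, 14353, 10265, 4378] : List ℕ).getD i 0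

theorem chk_bcB : ((List.range 21).all fun i => valid (bcB i)) = true := by
  decide +kernel

/-- A colouring of the first pattern with `μ ^ (-2) * λ = 1`. -/
noncomputable def baseB (i : Fin 21) : G := toG (bcB i.val)

theorem code_baseB (i : Fin 21) : code (baseB i) = bcB i.val :=
  code_toG (all_range' chk_bcB i.isLt)

theorem baseB_rel : PatRel baseB where
  f0 := code_inj (by simp only [code_cj, code_baseB]; decide +kernel)
  f1 := code_inj (by simp only [code_cj, code_baseB]; decide +kernel)
  f2 := code_inj (by simp only [code_cj, code_baseB]; decide +kernel)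
  f3 := code_inj (by simp only [code_cj, code_baseB]; decide +kernel)
  f4 := code_inj (by simp only [code_cj, code_baseB]; decide +kernel)
  f5 := code_inj (by simp only [code_cj, code_baseB]; decide +kernel)
  f6 := code_inj (by simp only [code_cj, code_baseB]; decide +kernel)
  f7 := code_inj (by simp only [code_cj, code_baseB]; decide +kernel)
  f8 := code_inj (by simp only [code_cj, code_baseB]; decide +kernel)
  f9 := code_inj (by simp only [code_cj, code_baseB]; decide +kernel)
  f10 := code_inj (by simp only [code_cj, code_baseB]; decide +kernel)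
  f11 := code_inj (by simp only [code_cj, code_baseB]; decide +kernel)
  f12 := code_inj (by simp only [code_cj, code_baseB]; decide +kernel)
  f13 := code_inj (by simp only [code_cj, code_baseB]; decide +kernel)
  f14 := code_inj (by simp only [code_cj, code_baseB]; decide +kernel)
  f15 := code_inj (by simp only [code_cj, code_baseB]; decide +kernel)
  f16 := code_inj (by simp only [code_cj, code_baseB]; decide +kernel)
  f17 := code_inj (by simp only [code_cj, code_baseB]; decide +kernel)
  f18 := code_inj (by simp only [code_cj, code_baseB]; decide +kernel)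
  f19 := code_inj (by simp only [code_cj, code_baseB]; decide +kernel)
  f20 := code_inj (by simp only [code_cj, code_baseB]; decide +kernel)

theorem baseB_K : lamK baseB = baseB 0 * baseB 0 := by
  apply code_inj
  unfold lamK
  simp only [code_mul, code_inv, code_one, code_baseB]
  decide +kernel

theorem baseB_four : baseB 0 * baseB 0 * (baseB 0 * baseB 0) ≠ 1 := by
  intro h
  have := congrArg code h
  rw [code_mul, code_mul, code_one, code_baseB] at this
  revert this
  decide +kernel

theorem baseB_E : ((baseB 6)⁻¹ * baseB 10) ^ (5 : ℕ) = 1 := by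
  apply code_inj
  simp only [pow_succ, pow_zero, one_mul, code_mul, code_inv, code_one, code_baseB]
  decide +kernel

theorem baseB_19 : baseB 19 = ((baseB 6)⁻¹ * baseB 10) ^ (2 : ℕ) := by
  apply code_inj
  simp only [pow_succ, pow_zero, one_mul, code_mul, code_inv, code_one, code_baseB]
  decide +kernel

theorem baseB_odd : Equiv.Perm.sign (baseB 0) = -1 := by
  rcases Int.units_eq_one_or (Equiv.Perm.sign (baseB 0)) with h | h
  · have h1 := chk_even _ h
    rw [code_baseB] at h1
    revert h1
    decide +kernel
  · exact h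

theorem zpow_mod_n {H : Type*} [Group H] (x : H) (n : ℕ) (hx : x ^ n = 1) (f : ℤ) (r : ℕ)
    (hf : f % (n : ℤ) = r) : x ^ f = x ^ r := by
  have h1 : f = (n : ℤ) * (f / n) + r := by rw [← hf]; exact (Int.mul_ediv_add_emod f n).symm
  rw [h1, zpow_add, zpow_mul, zpow_natCast, hx, one_zpow, one_mul, zpow_natCast]

theorem four_eq {H : Type*} [Group H] (x : H) : x ^ (-2 - 2 : ℤ) = (x * x * (x * x))⁻¹ := by
  have h1 : (-2 - 2 : ℤ) = -(4 : ℤ) := by norm_num
  have h2 : x ^ (4 : ℤ) = x ^ (4 : ℕ) := by exact_mod_cast zpow_natCast x 4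
  rw [h1, zpow_neg, h2]
  simp only [pow_succ, pow_zero, one_mul, mul_assoc]

end Vale.Agent.P258.H550S5
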